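import Vale.Agent.P281.H152.RC.Spec

/-!
# P281, project RADC (helper879): row R5a, the algebra in an adapted sheet
-/

open Set Filter Vale.Agent.P272.K
open Vale.Agent.P281.H64.TK Vale.Agent.P281.H64.TK.TS Vale.Agent.P281.H83.HK
open Vale.Agent.P281.H83.HKT (W4)
open Vale.Agent.P281.H751.HKT (rs W4_rs fc)

noncomputable section

namespace Vale.Agent.P281.H879.RC

open Vale.Agent.P281.H152.RC

/-- **R5a** -/
theorem alg : H152.RC.AlgStmt := by
  intro a h ε u hh hε h1 h0 x y k
  rw [W4_rs hh h0]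
  have e : fc u = Matrix.diagonal fun _ : Fin a => (ε : ℂ) := by
    ext j l
    rw [fc, Matrix.submatrix_apply, Matrix.diagonal_apply]
    exact h1 j l
  have e2 : ‖(fc u).det‖ ^ 2 = ε ^ (2 * a) := by
    rw [e, Matrix.det_diagonal, Finset.prod_const, Finset.card_univ, Fintype.card_fin, norm_pow,
      Complex.norm_real, Real.norm_of_nonneg hε.le, ← pow_mul, mul_comm a 2]
  rw [e2]

end Vale.Agent.P281.H879.RC
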